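import Vale.Agent.P314.Main2

/-!
# P314: the explicit hitting set for noncommutative `ΠΣΠ` formulas, in the wording of the problem
-/

namespace Vale.Agent.Results.P314.HittingSetForm

open Vale.Agent.P314

universe u

/-- The polynomials computed by `ΠΣΠ` formulas (ordered products of sums of monomials) of size at
most `s` in `n` variables: a subclass of the class `F_{n,s}(F)` of the problem. -/
def PiSigmaPiClass (F : Type u) [Field F] (n s : ℕ) : Set (FreeAlgebra F (Fin n)) :=
  {p | ∃ f : NCFormula F n, f.IsPiSigmaPi ∧ f.size ≤ s ∧ f.poly = p}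

/-- A set `H` of `n`-tuples of `d × d` matrices is a hitting set for a class `K` of noncommutative
polynomials: every nonzero `p ∈ K` has a nonzero matrix evaluation `p(T)` at some `T ∈ H`. -/
def IsHittingSet {F : Type u} [Field F] {n d : ℕ}
    (H : Set (Fin n → Matrix (Fin d) (Fin d) F)) (K : Set (FreeAlgebra F (Fin n))) : Prop :=
  ∀ p ∈ K, p ≠ 0 → ∃ T ∈ H, FreeAlgebra.lift F T p ≠ 0

/-- Over a field of characteristic zero the `s + 1` explicit tuples `T^{(0)}, ..., T^{(s)}` of
`(s+1) × (s+1)` matrices, depending only on `n` and `s`, form a hitting set for the class of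
polynomials computed by `ΠΣΠ` formulas of size at most `s`; the entries are spelled out. -/
theorem result (F : Type u) [Field F] [CharZero F] (n s : ℕ) :
    IsHittingSet (Set.range fun k : Fin (s + 1) => primeShift F n s k) (PiSigmaPiClass F n s) ∧
    (Set.range fun k : Fin (s + 1) => primeShift F n s k).Finite ∧
    (Set.range fun k : Fin (s + 1) => primeShift F n s k).ncard ≤ s + 1 ∧
    (∀ (k : ℕ) (i : Fin n) (a b : Fin (s + 1)), primeShift F n s k i a b =
      if (a : ℕ) + 1 = (b : ℕ) then ((Nat.nth Nat.Prime ((a : ℕ) * n + (i : ℕ)) : ℕ) : F) ^ k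
      else 0) := by
  refine ⟨?_, Set.finite_range _, ?_, fun k i a b => rfl⟩
  · rintro p ⟨f, hf, hs, rfl⟩ h0
    obtain ⟨k, hk, hne⟩ := hitting_piSigmaPi s f hf hs h0
    exact ⟨primeShift F n s k, ⟨⟨k, by omega⟩, rfl⟩, hne⟩
  · have h := Set.ncard_image_le (f := fun k : Fin (s + 1) => primeShift F n s k)
      (Set.finite_univ (α := Fin (s + 1)))
    rw [Set.image_univ, Set.ncard_univ, Nat.card_eq_fintype_card, Fintype.card_fin] at h
    exact h

end Vale.Agent.Results.P314.HittingSetForm
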