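import Vale.Agent.P314.Main2

/-!
# P314: an explicit polynomial-size hitting set for noncommutative `ΠΣΠ` formulas

Over every field of characteristic zero, the `s + 1` explicit tuples `primeShift F n s k`
(`k = 0, ..., s`) of `(s+1) × (s+1)` matrices form a hitting set for all noncommutative formulas of
size at most `s` that are ordered products of sums of monomials.
-/

namespace Vale.Agent.Results.P314.PiSigmaPiHittingSet

open Vale.Agent.P314

universe u

theorem result (F : Type u) [Field F] [CharZero F] (n s : ℕ) (f : NCFormula F n)
    (hf : f.IsPiSigmaPi) (hs : f.size ≤ s) (h0 : f.poly ≠ 0) :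
    ∃ k ≤ s, FreeAlgebra.lift F (primeShift F n s k) f.poly ≠ 0 :=
  hitting_piSigmaPi s f hf hs h0

end Vale.Agent.Results.P314.PiSigmaPiHittingSet
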